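import Vale.Agent.P022.H431.Sv.StDef
import Vale.Agent.P022.H20.L3.Def3
import Vale.Agent.P022.H20.GalDef

/-!
P022-L3, [SOLV]: residually solvable representations of level 3 are residually trivial; definitions
and literals of the blocks.
-/

open NumberField Matrix

noncomputable section

namespace Vale.Agent.P022.Sv

open Vale.Agent.P022

/-- [GRP] a solvable subgroup of `GL₂(k)`, `k` algebraically closed of characteristic 2, is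
triangular or monomial -/
def GrpStmt : Prop := ∀ (k : Type) [Field k] [IsAlgClosed k] [CharP k 2] (G : Type) [Group G]
  (ρ : G →* GL (Fin 2) k) (_ : Group.IsSolvable ρ.range),
  (∃ χ₁ χ₂ : G →* kˣ, ∀ g, (ρ g : Matrix (Fin 2) (Fin 2) k).trace = χ₁ g + χ₂ g ∧
    (ρ g : Matrix (Fin 2) (Fin 2) k).det = χ₁ g * χ₂ g) ∨
  ∃ (M : Subgroup G) (χ₁ χ₂ : M →* kˣ), M.index = 2 ∧
    (∀ m : M, (ρ m : Matrix (Fin 2) (Fin 2) k).trace = χ₁ m + χ₂ m) ∧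
    (∀ g : G, g ∉ M → (ρ g : Matrix (Fin 2) (Fin 2) k).trace = 0) ∧ ∃ m, χ₁ m ≠ χ₂ m

/-- [QUAD] the quadratic fields unramified outside 2 and 3 -/
def QuadStmt : Prop := ∀ (M : Subgroup GQ) (_ : IsOpen (M : Set GQ)) (_ : M.index = 2)
  (_ : ∀ ℓ : ℕ, ℓ.Prime → ¬ ℓ ∣ 6 → ∀ P : Ideal (𝓞 Qb), P.IsPrime → (ℓ : 𝓞 Qb) ∈ P →
    ∀ g : GQ, (∀ x : 𝓞 Qb, g • x - x ∈ P) → g ∈ M),
  ∃ (K : Type) (_ : Field K) (_ : NumberField K) (j : K →+* Qb) (s : 𝓞 K) (d : ℤ), GK j = M ∧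
    Module.finrank ℚ K = 2 ∧ d ∈ ({-1, 2, -2, 3, -3, 6, -6} : Finset ℤ) ∧ s ^ 2 = (d : 𝓞 K)

/-- [THUE] small solutions -/
def ThueStmt : Prop := ∀ (ℓ : ℕ) (_ : ℓ.Prime) (_ : 3 < ℓ) (d : ℤ)
  (_ : d ∈ ({-1, 2, -2, 3, -3, 6, -6} : Finset ℤ)) (c : ℤ) (_ : (ℓ : ℤ) ∣ c ^ 2 - d),
  ∃ x y b u w : ℤ, b ≠ 0 ∧ ¬ (ℓ : ℤ) ∣ b ∧ x ^ 2 - d * y ^ 2 = b * ℓ ∧ (ℓ : ℤ) ∣ x + c * y ∧
    x ^ 2 + d * y ^ 2 = b * u ∧ 2 * x * y = b * w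

/-- [ODD] a character of odd prime order of `G_K` unramified outside 2 is trivial, `K = ℚ(√d)`,
`d = -1, ±2, ±3, ±6` -/
def OddStmt : Prop := ∀ (K : Type) [Field K] [NumberField K] (j : K →+* Qb) (s : 𝓞 K) (d : ℤ)
  (_ : Module.finrank ℚ K = 2) (_ : d ∈ ({-1, 2, -2, 3, -3, 6, -6} : Finset ℤ))
  (_ : s ^ 2 = (d : 𝓞 K)) (q : ℕ) (_ : q.Prime) (_ : q ≠ 2) (θ : GK j →* Multiplicative (ZMod q))
  (_ : IsOpen (θ.ker : Set (GK j)))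
  (_ : ∀ ℓ : ℕ, ℓ.Prime → ℓ ≠ 2 → ∀ P : Ideal (𝓞 Qb), P.IsPrime → (ℓ : 𝓞 Qb) ∈ P →
    ∀ g : GK j, (∀ x : 𝓞 Qb, (g : GQ) • x - x ∈ P) → θ g = 1), ∀ g, θ g = 1

/-- [IND] the monomial irreducible case does not occur -/
def IndStmt : Prop := ∀ (E : Type) [NontriviallyNormedField E] [NormedAlgebra ℚ_[2] E]
  [FiniteDimensional ℚ_[2] E] (r : GQ →* GL (Fin 2) E) (_ : Continuous r)
  (_ : ∀ p : ℕ, p.Prime → p ≠ 2 → p ≠ 3 → St.UnrAt r p) (_ : St.PrincipalAt3 r)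
  (O : Subring E) (_ : ∀ x : E, x ∈ O ↔ ‖x‖ ≤ 1)
  (k : Type) [Field k] [CharP k 2] (π : O →+* k) (t : GQ → k)
  (_ : ∀ g, ∃ a : O, (a : E) = (r g : Matrix (Fin 2) (Fin 2) E).trace ∧ π a = t g)
  (M : Subgroup GQ) (χ₁ χ₂ : M →* kˣ) (_ : M.index = 2) (_ : ∀ m : M, t m = χ₁ m + χ₂ m)
  (_ : ∀ g : GQ, g ∉ M → t g = 0), ∀ m, χ₁ m = χ₂ m

/-- [LAT] the reduction of `r` (stable lattice) -/
def LatStmt : Prop := ∀ (E : Type) [NontriviallyNormedField E] [NormedAlgebra ℚ_[2] E]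
  [FiniteDimensional ℚ_[2] E] (r : GQ →* GL (Fin 2) E) (_ : Continuous r),
  ∃ (O : Subring E) (k : Type) (_ : Field k) (_ : CharP k 2) (π : O →+* k)
    (ρ : GQ →* GL (Fin 2) k), (∀ x : E, x ∈ O ↔ ‖x‖ ≤ 1) ∧ Function.Surjective π ∧
    (∀ x : O, π x = 0 ↔ ‖(x : E)‖ < 1) ∧
    ∀ g, ∃ t d : O, (t : E) = (r g : Matrix (Fin 2) (Fin 2) E).trace ∧
      (d : E) = (r g : Matrix (Fin 2) (Fin 2) E).det ∧
      π t = (ρ g : Matrix (Fin 2) (Fin 2) k).trace ∧ π d = (ρ g : Matrix (Fin 2) (Fin 2) k).det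

/-- [TRIV] = helper239's `resTriv_of`, in these letters -/
def TrivStmt : Prop := ∀ (E : Type) [NontriviallyNormedField E] [NormedAlgebra ℚ_[2] E]
  [FiniteDimensional ℚ_[2] E] (r : GQ →* GL (Fin 2) E) (_ : Continuous r)
  (_ : ∀ p : ℕ, p.Prime → p ≠ 2 → p ≠ 3 → St.UnrAt r p) (_ : St.PrincipalAt3 r)
  (O : Subring E) (_ : ∀ x : E, x ∈ O ↔ ‖x‖ ≤ 1)
  (k : Type) [Field k] [CharP k 2] (π : O →+* k) (χ₁ χ₂ : GQ →* kˣ)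
  (_ : ∀ g, ∃ t d : O, (t : E) = (r g : Matrix (Fin 2) (Fin 2) E).trace ∧
    (d : E) = (r g : Matrix (Fin 2) (Fin 2) E).det ∧
    π t = χ₁ g + χ₂ g ∧ π d = χ₁ g * χ₂ g), St.ResTriv r

/-- **[FIN]** the output: a residually solvable `r` (every `r` if the residue field has two
elements) is residually trivial -/
def SolvStmt : Prop := ∀ (E : Type) [NontriviallyNormedField E] [NormedAlgebra ℚ_[2] E]
  [FiniteDimensional ℚ_[2] E] (r : GQ →* GL (Fin 2) E) (_ : Continuous r)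
  (_ : ∀ p : ℕ, p.Prime → p ≠ 2 → p ≠ 3 → St.UnrAt r p) (_ : St.PrincipalAt3 r)
  (_ : St.ResSolv r ∨ St.ResTwo E), St.ResTriv r

end Vale.Agent.P022.Sv
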