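import Vale.Agent.P022.H431.Sv.Odd
import Vale.Agent.P022.H201.Sv.Asm
import Vale.Agent.P022.H783.Sv.Grp
import Vale.Agent.P022.H864.Sv.Lat
import Vale.Agent.P022.H224.Sv.S3
import Vale.Agent.P022.H279.Sv.Quad
import Vale.Agent.P022.H315.Sv.Ind
import Vale.Agent.P022.H239.L3.Res

/-!
P022-L3, [SOLV]: residually solvable representations of level 3 are residually trivial.
-/

namespace Vale.Agent.P022.Sv

/-- **[SOLV]** -/
theorem solvStmt : SolvStmt :=
  H201.Sv.solv_of H783.Sv.grp (H315.Sv.ind H279.Sv.quad odd) H864.Sv.latStmt H239.L3.triv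
    H224.Sv.gl2_solv

end Vale.Agent.P022.Sv
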