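import Vale.Agent.P022.H431.Sv.Thue
import Vale.Agent.P022.H542.Appl3
import Vale.Agent.P022.H651.FCH
import Vale.Agent.P022.H567.Rec
import Vale.Agent.P022.H853.L3.Dens

/-!
P022-L3, [SOLV], row [ODD]: characters of odd order unramified outside 2 of the quadratic fields
unramified outside 2 and 3 are trivial.
-/

open NumberField IsDedekindDomain UniqueFactorizationMonoid

noncomputable section

namespace Vale.Agent.P022.Sv

open Vale.Agent.P022 Vale.Agent.P022.H916 Vale.Agent.P022.C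

section

variable {K : Type} [Field K] [NumberField K]

/-- a power of `2` close to `1` -/
theorem pow_two_dvd {R : Type*} [CommRing R] {β : R} (h : (2 : R) ∣ β ^ 2 - 1) (M : ℕ) :
    (2 : R) ^ (M + 1) ∣ β ^ 2 ^ (M + 1) - 1 := by
  induction M with
  | zero => simpa using h
  | succ M ih =>
    have e : β ^ 2 ^ (M + 1 + 1) - 1 = (β ^ 2 ^ (M + 1) - 1) * ((β ^ 2 ^ (M + 1) - 1) + 2) := by
      rw [pow_succ 2 (M + 1), pow_mul]; ring
    rw [e, pow_succ]
    refine mul_dvd_mul ih ?_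
    refine dvd_add ((dvd_pow_self 2 (Nat.succ_ne_zero M)).trans ih) dvd_rfl

/-- `s` is not rational -/
theorem not_rat {d : ℤ} (hd : d ∈ ({-1, 2, -2, 3, -3, 6, -6} : Finset ℤ)) (q : ℚ) :
    q ^ 2 ≠ (d : ℚ) := by
  intro h
  have h0 : (q.num : ℤ) ^ 2 = d * (q.den : ℤ) ^ 2 := by
    have hq : (q.den : ℚ) ≠ 0 := by exact_mod_cast q.den_ne_zero
    have h1 : (q.num : ℚ) = q * q.den := (Rat.mul_den_eq_num q).symm
    have h2 : (q.num : ℚ) ^ 2 = d * (q.den : ℚ) ^ 2 := by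
      rw [h1, mul_pow, h]
    exact_mod_cast h2
  have hden : (q.den : ℤ) ≠ 0 := by exact_mod_cast q.den_ne_zero
  have hpos : 0 < (q.den : ℤ) ^ 2 := by positivity
  have hsq : 0 ≤ (q.num : ℤ) ^ 2 := sq_nonneg _
  simp only [Finset.mem_insert, Finset.mem_singleton] at hd
  rcases hd with rfl | rfl | rfl | rfl | rfl | rfl | rfl
  · linarith
  · exact not_sq Nat.prime_two (e := 1) (by norm_num) (Or.inr hden) (by push_cast; linarith)
  · linarith
  · exact not_sq Nat.prime_three (e := 1) (by norm_num) (Or.inr hden) (by push_cast; linarith)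
  · linarith
  · exact not_sq Nat.prime_two (e := 3) (by norm_num) (Or.inr hden) (by push_cast; linarith)
  · linarith

/-- the norm of `u + w s` -/
theorem norm_uw (h2 : Module.finrank ℚ K = 2) {s : 𝓞 K} {d : ℤ}
    (hd : d ∈ ({-1, 2, -2, 3, -3, 6, -6} : Finset ℤ)) (hs : s ^ 2 = (d : 𝓞 K)) (j : K →+* Qb)
    (u w : ℤ) : Algebra.norm ℤ ((u : 𝓞 K) + w * s) = u ^ 2 - d * w ^ 2 := by
  classical
  obtain ⟨g, hg⟩ := H20.exists_emb h2 j
  have hsK : (s : K) ^ 2 = (d : K) := by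
    have := congrArg (algebraMap (𝓞 K) K) hs
    simpa using this
  have hj2 : j (s : K) ^ 2 = (d : Qb) := by rw [← map_pow, hsK, map_intCast]
  have hg2 : g (s : K) ^ 2 = (d : Qb) := by rw [← map_pow, hsK, map_intCast]
  -- `s` generates `K`
  have htop : IntermediateField.adjoin ℚ {(s : K)} = ⊤ := by
    have h1 : Module.finrank ℚ (IntermediateField.adjoin ℚ {(s : K)}) ∣ 2 := by
      rw [← h2]
      exact ⟨_, (Module.finrank_mul_finrank ℚ (IntermediateField.adjoin ℚ {(s : K)}) K).symm⟩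
    rcases (Nat.dvd_prime Nat.prime_two).1 h1 with h | h
    · exfalso
      rw [IntermediateField.finrank_eq_one_iff] at h
      have h3 : (s : K) ∈ (⊥ : IntermediateField ℚ K) := by
        rw [← h]; exact IntermediateField.mem_adjoin_simple_self ℚ _
      obtain ⟨a, ha⟩ := IntermediateField.mem_bot.1 h3
      apply not_rat hd a
      have h4 : (algebraMap ℚ K) (a ^ 2) = algebraMap ℚ K (d : ℚ) := by
        rw [map_pow, ha, hsK, map_intCast]
      exact (algebraMap ℚ K).injective h4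
    · apply IntermediateField.eq_of_le_of_finrank_eq le_top
      rw [h, IntermediateField.finrank_top', h2]
  have hgs : g (s : K) = - j (s : K) := by
    have h1 : (g (s : K) - j (s : K)) * (g (s : K) + j (s : K)) = 0 := by
      linear_combination hg2 - hj2
    rcases mul_eq_zero.1 h1 with h | h
    · exfalso
      apply hg
      ext x
      have hx : x ∈ IntermediateField.adjoin ℚ {(s : K)} := by rw [htop]; trivial
      induction hx using IntermediateField.adjoin_induction with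
      | mem x hx =>
        rw [Set.mem_singleton_iff.1 hx]
        exact sub_eq_zero.1 h
      | algebraMap q => rw [eq_ratCast, map_ratCast, map_ratCast]
      | add x y _ _ hx hy => rw [map_add, map_add, hx, hy]
      | inv x _ hx => rw [map_inv₀, map_inv₀, hx]
      | mul x y _ _ hx hy => rw [map_mul, map_mul, hx, hy]
    · exact eq_neg_of_add_eq_zero_left h
  have hcard : (Finset.univ : Finset (K →ₐ[ℚ] Qb)) =
      {RingHom.equivRatAlgHom K Qb j, RingHom.equivRatAlgHom K Qb g} := by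
    symm
    rw [Finset.eq_univ_iff_forall]
    intro f
    rw [Finset.mem_insert, Finset.mem_singleton]
    rcases H20.emb_two h2 hg.symm (f : K →+* Qb) with h | h
    · left; apply AlgHom.ext; intro x; exact DFunLike.congr_fun h x
    · right; apply AlgHom.ext; intro x; exact DFunLike.congr_fun h x
  have hN : (algebraMap ℚ Qb) (Algebra.norm ℚ (((u : 𝓞 K) + w * s : 𝓞 K) : K)) =
      (algebraMap ℚ Qb) ((u ^ 2 - d * w ^ 2 : ℤ) : ℚ) := by
    rw [Algebra.norm_eq_prod_embeddings ℚ Qb, hcard, Finset.prod_pair]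
    · change j _ * g _ = _
      simp only [map_add, map_mul, map_intCast, hgs, Int.cast_sub, Int.cast_pow, Int.cast_mul,
        map_sub, map_pow]
      linear_combination -(w : Qb) ^ 2 * hj2
    · intro h
      exact hg ((RingHom.equivRatAlgHom K Qb).injective h).symm
  have h5 := (algebraMap ℚ Qb).injective hN
  rw [← Algebra.coe_norm_int] at h5
  exact_mod_cast h5

/-- a generator of the square of a prime ideal of prime norm -/
theorem exists_gen (h2 : Module.finrank ℚ K = 2) {s : 𝓞 K} {d : ℤ}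
    (hd : d ∈ ({-1, 2, -2, 3, -3, 6, -6} : Finset ℤ)) (hs : s ^ 2 = (d : 𝓞 K)) (j : K →+* Qb)
    {ℓ : ℕ} (hℓ : ℓ.Prime) (h3 : 3 < ℓ) {P : Ideal (𝓞 Qb)} (hP : P.IsPrime)
    (hℓP : (ℓ : 𝓞 Qb) ∈ P) (hN : Ideal.absNorm (below j P) = ℓ) :
    ∃ β : 𝓞 K, β ≠ 0 ∧ Ideal.span {β} = below j P ^ 2 ∧ (2 : 𝓞 K) ∣ β ^ 2 - 1 := by
  have hp : (below j P).IsPrime := Ideal.IsPrime.comap _
  have hℓp : (ℓ : 𝓞 K) ∈ below j P := H20.mem_of_norm hN
  have hp0 : below j P ≠ ⊥ := H20.ne_bot_of_mem hℓ hℓp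
  have hpm : (below j P).IsMaximal := hp.isMaximal hp0
  have hint : ∀ a : ℤ, (a : 𝓞 K) ∈ below j P → (ℓ : ℤ) ∣ a := by
    intro a ha
    have h1 : RingOfIntegers.mapRingHom j (a : 𝓞 K) ∈ P := ha
    rw [map_intCast] at h1
    exact H20.dvd_of_mem hℓ hP hℓP h1
  have hint' : ∀ a : ℤ, (ℓ : ℤ) ∣ a → (a : 𝓞 K) ∈ below j P := by
    rintro a ⟨t, rfl⟩
    rw [Int.cast_mul, Int.cast_natCast]
    exact Ideal.mul_mem_right _ _ hℓp
  obtain ⟨c, hc⟩ := H20.exists_int hℓ hN s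
  have hdvd : (ℓ : ℤ) ∣ c ^ 2 - d := by
    apply hint
    have e : ((c ^ 2 - d : ℤ) : 𝓞 K) = (s - c) * (-(s + c)) := by
      push_cast
      rw [← hs]; ring
    rw [e]
    exact Ideal.mul_mem_right _ _ hc
  obtain ⟨x, y, b, u, w, hb0, hbℓ, h1, h4, h5, h6⟩ := thue ℓ hℓ h3 d hd c hdvd
  have hα : ((x : 𝓞 K) + y * s) ∈ below j P := by
    have e : (x : 𝓞 K) + y * s = ((x + c * y : ℤ) : 𝓞 K) + (s - c) * y := by push_cast; ring
    rw [e]
    exact Ideal.add_mem _ (hint' _ h4) (Ideal.mul_mem_right _ _ hc)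
  set β : 𝓞 K := (u : 𝓞 K) + w * s with hβ
  have hbβ : (b : 𝓞 K) * β = ((x : 𝓞 K) + y * s) ^ 2 := by
    have e1 : (b : 𝓞 K) * u = x ^ 2 + d * y ^ 2 := by exact_mod_cast h5.symm
    have e2 : (b : 𝓞 K) * w = 2 * x * y := by exact_mod_cast h6.symm
    rw [hβ]
    linear_combination e1 + s * e2 - (y : 𝓞 K) ^ 2 * hs
  have hn : u ^ 2 - d * w ^ 2 = (ℓ : ℤ) ^ 2 := by
    have h7 : b ^ 2 * (u ^ 2 - d * w ^ 2) = b ^ 2 * (ℓ : ℤ) ^ 2 := by
      have e1 : b ^ 2 * (u ^ 2 - d * w ^ 2) = (b * u) ^ 2 - d * (b * w) ^ 2 := by ring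
      rw [e1, ← h5, ← h6]
      have e2 : (x ^ 2 + d * y ^ 2) ^ 2 - d * (2 * x * y) ^ 2 = (x ^ 2 - d * y ^ 2) ^ 2 := by ring
      rw [e2, h1]; ring
    exact mul_left_cancel₀ (pow_ne_zero 2 hb0) h7
  have hnorm : Ideal.absNorm (Ideal.span {β}) = ℓ ^ 2 := by
    rw [Ideal.absNorm_span_singleton, hβ, norm_uw h2 hd hs j, hn, Int.natAbs_pow, Int.natAbs_natCast]
  have hβ0 : β ≠ 0 := by
    intro h
    rw [h, Ideal.span_singleton_zero, Ideal.absNorm_bot] at hnorm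
    exact (pow_ne_zero 2 hℓ.ne_zero) hnorm.symm
  have hle : Ideal.span {β} ≤ below j P ^ 2 := by
    have hco : IsCoprime (below j P ^ 2) (Ideal.span {(b : 𝓞 K)}) := by
      refine IsCoprime.pow_left ?_
      rw [Ideal.isCoprime_iff_sup_eq]
      by_contra hne
      have h7 := hpm.eq_of_le hne le_sup_left
      have h8 : (b : 𝓞 K) ∈ below j P ⊔ Ideal.span {(b : 𝓞 K)} :=
        Ideal.mem_sup_right (Ideal.mem_span_singleton_self _)
      rw [← h7] at h8
      exact hbℓ (hint b h8)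
    have hd1 : below j P ^ 2 ∣ Ideal.span {β} * Ideal.span {(b : 𝓞 K)} := by
      rw [Ideal.dvd_iff_le, Ideal.span_singleton_mul_span_singleton,
        Ideal.span_singleton_le_iff_mem, mul_comm β, hbβ]
      exact Ideal.pow_mem_pow hα 2
    exact Ideal.dvd_iff_le.1 (hco.dvd_of_dvd_mul_right hd1)
  refine ⟨β, hβ0, ?_, ?_⟩
  · apply H20.eq_of_le_of_absNorm hle
    · rw [Ne, Ideal.span_singleton_eq_bot]; exact hβ0
    · rw [hnorm, map_pow, hN]
  · have hodd : Odd ℓ := hℓ.odd_of_ne_two (by omega)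
    obtain ⟨t, ht⟩ := hodd
    refine ⟨((2 * t ^ 2 + 2 * t + d * w ^ 2 : ℤ) : 𝓞 K) + u * w * s, ?_⟩
    have e1 : (u : 𝓞 K) ^ 2 - d * w ^ 2 = (2 * t + 1) ^ 2 := by
      have : (u : ℤ) ^ 2 - d * w ^ 2 = (2 * t + 1) ^ 2 := by rw [hn, ht]; push_cast; ring
      exact_mod_cast this
    rw [hβ]
    push_cast
    linear_combination e1 + (w : 𝓞 K) ^ 2 * hs

/-- a prime of `K` at which the Frobenius element comes from a Frobenius of exponent `ℓ` has
norm `ℓ` -/
theorem norm_eq (h2 : Module.finrank ℚ K = 2) (j : K →+* Qb) {ℓ : ℕ} (hℓ : ℓ.Prime)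
    {P : Ideal (𝓞 Qb)} (hP : P.IsPrime) (hℓP : (ℓ : 𝓞 Qb) ∈ P) {φ : GK j}
    (hφ : ∀ x : 𝓞 Qb, (φ : GQ) • x - x ^ ℓ ∈ P) : Ideal.absNorm (below j P) = ℓ := by
  have hp : (below j P).IsPrime := Ideal.IsPrime.comap _
  have hℓp : (ℓ : 𝓞 K) ∈ below j P := by
    have h1 : RingOfIntegers.mapRingHom j (ℓ : 𝓞 K) ∈ P := by rwa [map_natCast]
    exact h1
  rcases H20.norm_or_span h2 hℓ hp hℓp with h | h
  · exact h
  · exfalso
    have hfix : ∀ y : 𝓞 K, y ^ ℓ - y ∈ below j P := by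
      intro y
      have h1 := hφ (RingOfIntegers.mapRingHom j y)
      have h3 : (φ : GQ) • RingOfIntegers.mapRingHom j y = RingOfIntegers.mapRingHom j y := by
        apply RingOfIntegers.ext
        exact φ.2 (y : K)
      rw [h3, ← neg_sub, ← map_pow, ← map_sub] at h1
      have h4 := P.neg_mem h1
      rw [neg_neg] at h4
      exact h4
    have hR : ∀ x : 𝓞 K ⧸ below j P, x ^ ℓ = x := by
      intro x
      obtain ⟨y, rfl⟩ := Ideal.Quotient.mk_surjective x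
      rw [← map_pow]
      exact Ideal.Quotient.eq.2 (hfix y)
    have h5 := (H853.card_le_of_pow_eq hℓ.one_lt hR).2
    have h6 : Nat.card (𝓞 K ⧸ below j P) = ℓ ^ 2 := by
      have : Ideal.absNorm (below j P) = Nat.card (𝓞 K ⧸ below j P) := by
        rw [Ideal.absNorm_apply]; rfl
      rw [← this, h, H20.absNorm_span_l h2]
    rw [h6] at h5
    have := hℓ.two_le
    nlinarith

/-- the values on the Frobenius elements -/
theorem exists_att (j : K →+* Qb) {A : Type} [CommGroup A] (θ : GK j →* A)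
    (hunr : ∀ ℓ : ℕ, ℓ.Prime → ℓ ≠ 2 → ∀ P : Ideal (𝓞 Qb), P.IsPrime → (ℓ : 𝓞 Qb) ∈ P →
      ∀ g : GK j, (∀ x : 𝓞 Qb, (g : GQ) • x - x ∈ P) → θ g = 1) :
    ∃ f : Ideal (𝓞 K) → A, H542.Att j θ f 2 := by
  classical
  let p : Ideal (𝓞 K) → Prop := fun I => ∃ (v : HeightOneSpectrum (𝓞 K)) (P : Ideal (𝓞 Qb))
    (g : GK j), v.asIdeal = I ∧ FrI j v P g
  refine ⟨fun I => if h : p I then θ h.choose_spec.choose_spec.choose else 1, ?_⟩
  intro ℓ hℓ hℓ2 P hP hℓP g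
  have hℓ2' : ℓ ≠ 2 := by rintro rfl; exact hℓ2 dvd_rfl
  refine ⟨hunr ℓ hℓ hℓ2' P hP hℓP g, fun hg => ?_⟩
  have hp : (below j P).IsPrime := Ideal.IsPrime.comap _
  have hℓp : (ℓ : 𝓞 K) ∈ below j P := by
    have h1 : RingOfIntegers.mapRingHom j (ℓ : 𝓞 K) ∈ P := by rwa [map_natCast]
    exact h1
  have hp0 : below j P ≠ ⊥ := H20.ne_bot_of_mem hℓ hℓp
  let v : HeightOneSpectrum (𝓞 K) := ⟨below j P, hp, hp0⟩
  have hpI : p (below j P) := ⟨v, P, g, rfl, hP, rfl, hg⟩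
  change θ g = if h : p (below j P) then θ h.choose_spec.choose_spec.choose else 1
  rw [dif_pos hpI]
  obtain ⟨e1, e2⟩ := hpI.choose_spec.choose_spec.choose_spec
  refine H565.fre_unique (j := j) θ hpI.choose ?_ P _ g _ ⟨hP, e1.symm, ?_⟩ e2
  · intro Q hQ hb g' hg'
    refine hunr ℓ hℓ hℓ2' Q hQ ?_ g' hg'
    have h1 : (ℓ : 𝓞 K) ∈ below j Q := by rw [hb, e1]; exact hℓp
    have h2 : RingOfIntegers.mapRingHom j (ℓ : 𝓞 K) ∈ Q := h1
    rwa [map_natCast] at h2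
  · rw [e1]; exact hg

theorem odd_aux (h2 : Module.finrank ℚ K = 2) {s : 𝓞 K} {d : ℤ}
    (hd : d ∈ ({-1, 2, -2, 3, -3, 6, -6} : Finset ℤ)) (hs : s ^ 2 = (d : 𝓞 K)) (j : K →+* Qb)
    (q : ℕ) (hq : q.Prime) (hq2 : q ≠ 2) (θ : GK j →* Multiplicative (ZMod (q ^ 1)))
    (hθ : IsOpen (θ.ker : Set (GK j)))
    (hunr : ∀ ℓ : ℕ, ℓ.Prime → ℓ ≠ 2 → ∀ P : Ideal (𝓞 Qb), P.IsPrime → (ℓ : 𝓞 Qb) ∈ P →
      ∀ g : GK j, (∀ x : 𝓞 Qb, (g : GQ) • x - x ∈ P) → θ g = 1) (g : GK j) : θ g = 1 := by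
  classical
  by_contra hne
  have hodd : Odd q := hq.odd_of_ne_two hq2
  -- a power of `2` kills nothing
  have hkill : ∀ (a : Multiplicative (ZMod (q ^ 1))) (n : ℕ), a ^ 2 ^ n = 1 → a = 1 := by
    intro a n h
    have h1 : orderOf a ∣ 2 ^ n := orderOf_dvd_of_pow_eq_one h
    have : NeZero (q ^ 1) := ⟨pow_ne_zero 1 hq.ne_zero⟩
    have h3 : orderOf a ∣ q ^ 1 := by
      have h4 := orderOf_dvd_natCard a
      have h5 : Nat.card (Multiplicative (ZMod (q ^ 1))) = q ^ 1 := by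
        rw [Nat.card_congr Multiplicative.toAdd, Nat.card_zmod]
      rwa [h5] at h4
    have h4 : Nat.Coprime (2 ^ n) (q ^ 1) :=
      Nat.Coprime.pow _ _ ((Nat.coprime_primes Nat.prime_two hq).2 hq2.symm)
    exact orderOf_eq_one_iff.1 (Nat.eq_one_of_dvd_coprimes h4 h1 h3)
  obtain ⟨L, _, _, _, _, jL, ρ, D, hker, -⟩ := exists_cyc j hθ
  have hmem : ∀ g : GK j, (g : GQ) ∈ GK jL ↔ θ g = 1 := fun g => (D.ker g).symm.trans (hker g)
  obtain ⟨ℓ, hℓ, hℓS, P, hP, hℓP, φ, hφ, hφL⟩ := H853.frob_not_mem D (s := g)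
    (fun h => hne ((hmem g).1 h)) (by
      intro x hx u hu
      have hu' : u ∈ GK j := D.mem_GK hu
      have h1 : (((⟨x, hx⟩ : GK j) * ⟨u, hu'⟩ * (⟨x, hx⟩ : GK j)⁻¹ : GK j) : GQ) ∈ GK jL := by
        rw [hmem, map_mul, map_mul, (hmem ⟨u, hu'⟩).1 hu, mul_one, map_inv, mul_inv_cancel]
      exact h1) {2, 3} (by simp)
  have hℓ3 : 3 < ℓ := by
    have := hℓ.two_le
    simp only [Finset.mem_insert, Finset.mem_singleton, not_or] at hℓS
    omega
  have hN := norm_eq h2 j hℓ hP hℓP hφ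
  obtain ⟨f, hf⟩ := exists_att j θ hunr
  have hθφ : θ φ = f (below j P) := by
    refine (hf ℓ hℓ (fun h => ?_) P hP hℓP φ).2 (by rw [hN]; exact hφ)
    have := (Nat.prime_dvd_prime_iff_eq hℓ Nat.prime_two).1 h
    omega
  apply hφL
  rw [hmem, hθφ]
  obtain ⟨M, hM⟩ := H542.artg_of_fch (H651.FCH REC) j q 1 hq θ hθ 2 two_ne_zero f hf
  obtain ⟨β, hβ0, hβ, hβ2⟩ := exists_gen h2 hd hs j hℓ hℓ3 hP hℓP hN
  have hlaw := hM (β ^ 2 ^ (M + 1)) (pow_ne_zero _ hβ0) ?_ ?_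
  · have hp : (below j P).IsPrime := Ideal.IsPrime.comap _
    have hp0 : below j P ≠ ⊥ := H20.ne_bot_of_mem hℓ (H20.mem_of_norm hN)
    have hirr : Irreducible (below j P) := (Ideal.prime_of_isPrime hp0 hp).irreducible
    have e1 : Ideal.span {β ^ 2 ^ (M + 1)} = below j P ^ 2 ^ (M + 2) := by
      rw [← Ideal.span_singleton_pow, hβ, ← pow_mul]
      congr 1
      rw [pow_succ 2 (M + 1)]; ring
    rw [e1, normalizedFactors_pow, normalizedFactors_irreducible hirr, Multiset.map_nsmul,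
      Multiset.prod_nsmul, Multiset.map_singleton, Multiset.prod_singleton] at hlaw
    have e2 : normalize (below j P) = below j P := normalize_eq _
    rw [e2] at hlaw
    exact hkill _ _ hlaw
  · have h3 := pow_two_dvd hβ2 M
    push_cast
    exact (pow_dvd_pow 2 (Nat.le_succ M)).trans h3
  · intro ι c hc hne1
    exfalso
    apply hne1
    have h3 : (c : GQ) * c = 1 := H20.conj_sq ⟨ι, hc⟩
    apply hkill _ 1
    have h4 : c * c = 1 := Subtype.ext h3
    have h5 : θ c ^ 2 = 1 := by rw [pow_two, ← map_mul, h4, map_one]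
    simpa using h5

end

/-- **[ODD]** -/
theorem odd : OddStmt := by
  intro K _ _ j s d h2 hd hs q hq hq2 θ hθ hunr g
  obtain ⟨Q, hQ⟩ : ∃ Q : ℕ, Q = q ^ 1 := ⟨_, rfl⟩
  have hQ' : q = Q := by rw [hQ, pow_one]
  have aux := odd_aux h2 hd hs j q hq hq2
  rw [← hQ, ← hQ'] at aux
  exact aux θ hθ hunr g

end Vale.Agent.P022.Sv
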