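import Mathlib

/-!
P022: residually solvable representations (words of the statement). `ℚ̄` is Mathlib's algebraic
closure of `ℚ`, `E` a finite extension of `ℚ₂`.
-/

open Matrix

noncomputable section

namespace Vale.Agent.P022.St

variable {E : Type} [NontriviallyNormedField E]
  (r : (AlgebraicClosure ℚ ≃ₐ[ℚ] AlgebraicClosure ℚ) →* GL (Fin 2) E)

/-- `r` is residually solvable: the traces and determinants of `r` are in the ring `O` of integers
and modulo the maximal ideal they are those of a representation `ρ` with solvable image, over some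
extension `k` of the residue field -/
def ResSolv : Prop :=
  ∃ (O : Subring E) (k : Type) (_ : Field k) (_ : CharP k 2) (π : O →+* k)
    (ρ : (AlgebraicClosure ℚ ≃ₐ[ℚ] AlgebraicClosure ℚ) →* GL (Fin 2) k),
    (∀ x : E, x ∈ O ↔ ‖x‖ ≤ 1) ∧ Group.IsSolvable ρ.range ∧
    ∀ g, ∃ t d : O, (t : E) = (r g : Matrix (Fin 2) (Fin 2) E).trace ∧
      (d : E) = (r g : Matrix (Fin 2) (Fin 2) E).det ∧
      π t = (ρ g : Matrix (Fin 2) (Fin 2) k).trace ∧ π d = (ρ g : Matrix (Fin 2) (Fin 2) k).det

/-- the residue field of `E` has two elements -/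
def ResTwo (E : Type) [NontriviallyNormedField E] : Prop :=
  ∀ x : E, ‖x‖ ≤ 1 → ‖x‖ < 1 ∨ ‖x - 1‖ < 1

end Vale.Agent.P022.St
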