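import Vale.Agent.P022.H431.Sv.Defs

/-!
P022-L3, [SOLV], row [THUE]: small solutions.
-/

namespace Vale.Agent.P022.Sv

/-- Thue's lemma -/
theorem thue_box {ℓ : ℕ} (hℓ : 0 < ℓ) (c : ℤ) (X Y : ℕ) (h : ℓ < (X + 1) * (Y + 1)) :
    ∃ x y : ℤ, (x ≠ 0 ∨ y ≠ 0) ∧ |x| ≤ X ∧ |y| ≤ Y ∧ (ℓ : ℤ) ∣ x + c * y := by
  have : NeZero ℓ := ⟨hℓ.ne'⟩
  let f : Fin (X + 1) × Fin (Y + 1) → ZMod ℓ := fun p => ((p.1 : ℕ) : ZMod ℓ) + c * ((p.2 : ℕ) : ZMod ℓ)
  obtain ⟨p, q, hpq, h1⟩ := Fintype.exists_ne_map_eq_of_card_lt f (by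
    rw [ZMod.card, Fintype.card_prod, Fintype.card_fin, Fintype.card_fin]; exact h)
  refine ⟨(p.1 : ℤ) - q.1, (p.2 : ℤ) - q.2, ?_, ?_, ?_, ?_⟩
  · by_contra hc
    push Not at hc
    apply hpq
    refine Prod.ext (Fin.ext ?_) (Fin.ext ?_)
    · have := hc.1; omega
    · have := hc.2; omega
  · rw [abs_le]; have := p.1.2; have := q.1.2; constructor <;> omega
  · rw [abs_le]; have := p.2.2; have := q.2.2; constructor <;> omega
  · rw [← ZMod.intCast_zmod_eq_zero_iff_dvd]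
    have h2 : ((p.1 : ℕ) : ZMod ℓ) + c * ((p.2 : ℕ) : ZMod ℓ) =
      ((q.1 : ℕ) : ZMod ℓ) + c * ((q.2 : ℕ) : ZMod ℓ) := h1
    push_cast
    linear_combination h2

/-- `x² = p d' y²` is impossible -/
theorem not_sq {p : ℕ} (hp : p.Prime) {e : ℤ} (he : ¬ (p : ℤ) ∣ e) {x y : ℤ} (hxy : x ≠ 0 ∨ y ≠ 0)
    (h : x ^ 2 = p * e * y ^ 2) : False := by
  have : Fact p.Prime := ⟨hp⟩
  have he0 : e ≠ 0 := by rintro rfl; exact he (dvd_zero _)
  have hp0 : (p : ℤ) ≠ 0 := by exact_mod_cast hp.ne_zero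
  have hx : x ≠ 0 := by
    rintro rfl
    have hy : y ≠ 0 := by simpa using hxy
    have h0 : (p : ℤ) * e * y ^ 2 = 0 := by rw [← h]; ring
    exact (mul_ne_zero (mul_ne_zero hp0 he0) (pow_ne_zero 2 hy)) h0
  have hy : y ≠ 0 := by
    rintro rfl
    apply hx
    have : x ^ 2 = 0 := by rw [h]; ring
    exact pow_eq_zero_iff (two_ne_zero) |>.1 this
  have h1 := congrArg (padicValInt p) h
  rw [padicValInt.mul (mul_ne_zero hp0 he0) (pow_ne_zero 2 hy), padicValInt.mul hp0 he0, pow_two,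
    pow_two, padicValInt.mul hx hx, padicValInt.mul hy hy, padicValInt.self hp.one_lt,
    padicValInt.eq_zero_of_not_dvd he] at h1
  omega

theorem thue : ThueStmt := by
  intro ℓ hℓ h3 d hd c hc
  have hodd : ℓ % 2 = 1 := by
    rcases hℓ.eq_two_or_odd with h | h
    · omega
    · exact h
  -- a small point
  obtain ⟨x, y, hxy, hx, hy, hdv⟩ : ∃ x y : ℤ, (x ≠ 0 ∨ y ≠ 0) ∧
      x ^ 2 < (if d = 6 ∨ d = -6 then 2 else 1) * (ℓ : ℤ) ∧
      (if d = 6 ∨ d = -6 then 2 else 1) * y ^ 2 < (ℓ : ℤ) ∧ (ℓ : ℤ) ∣ x + c * y := by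
    split_ifs with h6
    · have hA : ℓ < (Nat.sqrt (2 * ℓ) + 1) * (Nat.sqrt (ℓ / 2) + 1) := by
        have h1 : 2 * ℓ < (Nat.sqrt (2 * ℓ) + 1) * (Nat.sqrt (2 * ℓ) + 1) :=
          Nat.lt_succ_sqrt _
        have h2 : ℓ / 2 < (Nat.sqrt (ℓ / 2) + 1) * (Nat.sqrt (ℓ / 2) + 1) :=
          Nat.lt_succ_sqrt _
        by_contra hlt
        push Not at hlt
        set a := Nat.sqrt (2 * ℓ) + 1
        set b := Nat.sqrt (ℓ / 2) + 1
        have h4 : ℓ < 2 * (b * b) := by omega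
        have h5 : (2 * ℓ) * ℓ < (a * a) * (2 * (b * b)) :=
          Nat.mul_lt_mul'' h1 h4
        have h6 : (a * b) * (a * b) ≤ ℓ * ℓ := Nat.mul_le_mul hlt hlt
        nlinarith
      obtain ⟨x, y, hxy, hx, hy, hdv⟩ := thue_box hℓ.pos c _ _ hA
      refine ⟨x, y, hxy, ?_, ?_, hdv⟩
      · have h1 : x ^ 2 ≤ 2 * (ℓ : ℤ) := by
          have h2 : ((Nat.sqrt (2 * ℓ) : ℕ) : ℤ) ^ 2 ≤ 2 * (ℓ : ℤ) := by
            exact_mod_cast Nat.sqrt_le' (2 * ℓ)
          rw [← sq_abs]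
          exact (pow_le_pow_left₀ (abs_nonneg x) hx 2).trans h2
        rcases h1.lt_or_eq with h2 | h2
        · exact h2
        · exfalso
          rcases Int.even_or_odd' x with ⟨t, rfl | rfl⟩
          · ring_nf at h2; omega
          · ring_nf at h2; omega
      · have h1 : 2 * y ^ 2 ≤ (ℓ : ℤ) := by
          have h2 : ((Nat.sqrt (ℓ / 2) : ℕ) : ℤ) ^ 2 ≤ ((ℓ / 2 : ℕ) : ℤ) := by
            exact_mod_cast Nat.sqrt_le' (ℓ / 2)
          have h3 : y ^ 2 ≤ ((ℓ / 2 : ℕ) : ℤ) := by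
            rw [← sq_abs]
            exact (pow_le_pow_left₀ (abs_nonneg y) hy 2).trans h2
          omega
        omega
    · have hA : ℓ < (Nat.sqrt ℓ + 1) * (Nat.sqrt ℓ + 1) := Nat.lt_succ_sqrt _
      obtain ⟨x, y, hxy, hx, hy, hdv⟩ := thue_box hℓ.pos c _ _ hA
      have key : ∀ z : ℤ, |z| ≤ (Nat.sqrt ℓ : ℕ) → z ^ 2 < (ℓ : ℤ) := by
        intro z hz
        have h1 : z ^ 2 ≤ (ℓ : ℤ) := by
          have h2 : ((Nat.sqrt ℓ : ℕ) : ℤ) ^ 2 ≤ (ℓ : ℤ) := by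
            exact_mod_cast Nat.sqrt_le' ℓ
          rw [← sq_abs]
          exact (pow_le_pow_left₀ (abs_nonneg z) hz 2).trans h2
        rcases h1.lt_or_eq with h2 | h2
        · exact h2
        · exfalso
          have h3 : z.natAbs ^ 2 = ℓ := by
            have : ((z.natAbs ^ 2 : ℕ) : ℤ) = ℓ := by
              rw [← h2, Nat.cast_pow, Int.natCast_natAbs, sq_abs]
            exact_mod_cast this
          rw [← h3] at hℓ
          exact hℓ.not_prime_pow (le_refl 2)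
      refine ⟨x, y, hxy, ?_, ?_, hdv⟩
      · rw [one_mul]; exact key x hx
      · rw [one_mul]; exact key y hy
  have hN : (ℓ : ℤ) ∣ x ^ 2 - d * y ^ 2 := by
    have h1 : x ^ 2 - d * y ^ 2 = (x + c * y) * (x - c * y) + (c ^ 2 - d) * y ^ 2 := by ring
    rw [h1]
    exact dvd_add (Dvd.dvd.mul_right hdv _) (Dvd.dvd.mul_right hc _)
  obtain ⟨b, hb⟩ := hN
  have hℓ0 : (0 : ℤ) < ℓ := by exact_mod_cast hℓ.pos
  have hℓ5 : (5 : ℤ) ≤ ℓ := by
    have : ℓ ≠ 4 := by rintro rfl; norm_num at hℓ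
    omega
  have hx0 : 0 ≤ x ^ 2 := sq_nonneg x
  have hy0 : 0 ≤ y ^ 2 := sq_nonneg y
  have hb' : x ^ 2 - d * y ^ 2 = b * ℓ := by rw [hb, mul_comm]
  have hpos : 0 < x ^ 2 + y ^ 2 := by
    rcases hxy with h | h
    · have := pow_pos (abs_pos.2 h) 2; rw [sq_abs] at this; omega
    · have := pow_pos (abs_pos.2 h) 2; rw [sq_abs] at this; omega
  have fin : ∀ (A B : ℤ), A < 5 → -5 < B → b * ℓ < A * ℓ → B * ℓ < b * ℓ → b < A ∧ B < b := by
    intro A B _ _ h1 h2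
    exact ⟨lt_of_mul_lt_mul_right h1 hℓ0.le, lt_of_mul_lt_mul_right h2 hℓ0.le⟩
  have ndvd : b ≠ 0 → b < 5 → -5 < b → ¬ (ℓ : ℤ) ∣ b := by
    intro h0 h1 h2 h
    have h4 := Int.le_of_dvd (abs_pos.2 h0) ((dvd_abs _ _).2 h)
    rw [le_abs] at h4
    omega
  simp only [Finset.mem_insert, Finset.mem_singleton] at hd
  -- the division
  have conc : b ≠ 0 → b < 5 → -5 < b → (∃ e, 2 * d * y ^ 2 = b * e) → (∃ w, 2 * x * y = b * w) →
      ∃ x y b u w : ℤ, b ≠ 0 ∧ ¬ (ℓ : ℤ) ∣ b ∧ x ^ 2 - d * y ^ 2 = b * ℓ ∧ (ℓ : ℤ) ∣ x + c * y ∧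
        x ^ 2 + d * y ^ 2 = b * u ∧ 2 * x * y = b * w := by
    rintro h0 h1 h2 ⟨e, he⟩ ⟨w, hw⟩
    exact ⟨x, y, b, ℓ + e, w, h0, ndvd h0 h1 h2, hb', hdv, by linear_combination hb' + he, hw⟩
  rcases hd with rfl | rfl | rfl | rfl | rfl | rfl | rfl
  · -- d = -1
    norm_num at hx hy
    have h1 : b < 2 ∧ 0 < b := fin 2 0 (by norm_num) (by norm_num) (by linarith) (by linarith)
    obtain rfl : b = 1 := by omega
    exact conc (by norm_num) (by norm_num) (by norm_num) ⟨_, (one_mul _).symm⟩ ⟨_, (one_mul _).symm⟩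
  · -- d = 2
    norm_num at hx hy
    have h1 : b < 1 ∧ -2 < b := fin 1 (-2) (by norm_num) (by norm_num) (by linarith) (by linarith)
    have h0 : b ≠ 0 := by
      rintro rfl
      exact not_sq Nat.prime_two (e := 1) (by norm_num) hxy (by push_cast; linarith)
    obtain rfl : b = -1 := by omega
    exact conc (by norm_num) (by norm_num) (by norm_num) ⟨-(2 * 2 * y ^ 2), by ring⟩
      ⟨-(2 * x * y), by ring⟩
  · -- d = -2
    norm_num at hx hy
    have h1 : b < 3 ∧ 0 < b := fin 3 0 (by norm_num) (by norm_num) (by linarith) (by linarith)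
    obtain rfl | rfl : b = 1 ∨ b = 2 := by omega
    · exact conc (by norm_num) (by norm_num) (by norm_num) ⟨_, (one_mul _).symm⟩
        ⟨_, (one_mul _).symm⟩
    · exact conc (by norm_num) (by norm_num) (by norm_num) ⟨-(2 * y ^ 2), by ring⟩
        ⟨x * y, by ring⟩
  · -- d = 3
    norm_num at hx hy
    have h1 : b < 1 ∧ -3 < b := fin 1 (-3) (by norm_num) (by norm_num) (by linarith) (by linarith)
    have h0 : b ≠ 0 := by
      rintro rfl
      exact not_sq Nat.prime_three (e := 1) (by norm_num) hxy (by push_cast; linarith)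
    obtain rfl | rfl : b = -1 ∨ b = -2 := by omega
    · exact conc (by norm_num) (by norm_num) (by norm_num) ⟨-(2 * 3 * y ^ 2), by ring⟩
        ⟨-(2 * x * y), by ring⟩
    · exact conc (by norm_num) (by norm_num) (by norm_num) ⟨-(3 * y ^ 2), by ring⟩
        ⟨-(x * y), by ring⟩
  · -- d = -3
    norm_num at hx hy
    have h1 : b < 4 ∧ 0 < b := fin 4 0 (by norm_num) (by norm_num) (by linarith) (by linarith)
    obtain rfl | rfl | rfl : b = 1 ∨ b = 2 ∨ b = 3 := by omega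
    · exact conc (by norm_num) (by norm_num) (by norm_num) ⟨_, (one_mul _).symm⟩
        ⟨_, (one_mul _).symm⟩
    · exact conc (by norm_num) (by norm_num) (by norm_num) ⟨-(3 * y ^ 2), by ring⟩
        ⟨x * y, by ring⟩
    · have h3 : (3 : ℤ) ∣ x := by
        refine Int.prime_three.dvd_of_dvd_pow (n := 2) ⟨ℓ - y ^ 2, ?_⟩
        linear_combination hb'
      obtain ⟨t, rfl⟩ := h3
      exact conc (by norm_num) (by norm_num) (by norm_num) ⟨-(2 * y ^ 2), by ring⟩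
        ⟨2 * t * y, by ring⟩
  · -- d = 6
    norm_num at hx hy
    have h1 : b < 2 ∧ -3 < b := fin 2 (-3) (by norm_num) (by norm_num) (by linarith) (by linarith)
    have h0 : b ≠ 0 := by
      rintro rfl
      exact not_sq Nat.prime_two (e := 3) (by norm_num) hxy (by push_cast; linarith)
    obtain rfl | rfl | rfl : b = 1 ∨ b = -1 ∨ b = -2 := by omega
    · exact conc (by norm_num) (by norm_num) (by norm_num) ⟨_, (one_mul _).symm⟩
        ⟨_, (one_mul _).symm⟩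
    · exact conc (by norm_num) (by norm_num) (by norm_num) ⟨-(2 * 6 * y ^ 2), by ring⟩
        ⟨-(2 * x * y), by ring⟩
    · exact conc (by norm_num) (by norm_num) (by norm_num) ⟨-(6 * y ^ 2), by ring⟩
        ⟨-(x * y), by ring⟩
  · -- d = -6
    norm_num at hx hy
    have h1 : b < 5 ∧ 0 < b := by
      constructor
      · refine lt_of_mul_lt_mul_right (a := (ℓ : ℤ)) ?_ hℓ0.le
        linarith
      · refine lt_of_mul_lt_mul_right (a := (ℓ : ℤ)) ?_ hℓ0.le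
        linarith
    obtain rfl | rfl | rfl | rfl : b = 1 ∨ b = 2 ∨ b = 3 ∨ b = 4 := by omega
    · exact conc (by norm_num) (by norm_num) (by norm_num) ⟨_, (one_mul _).symm⟩
        ⟨_, (one_mul _).symm⟩
    · exact conc (by norm_num) (by norm_num) (by norm_num) ⟨-(6 * y ^ 2), by ring⟩
        ⟨x * y, by ring⟩
    · have h3 : (3 : ℤ) ∣ x := by
        refine Int.prime_three.dvd_of_dvd_pow (n := 2) ⟨ℓ - 2 * y ^ 2, ?_⟩
        linear_combination hb'
      obtain ⟨t, rfl⟩ := h3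
      exact conc (by norm_num) (by norm_num) (by norm_num) ⟨-(4 * y ^ 2), by ring⟩
        ⟨2 * t * y, by ring⟩
    · have h3 : (2 : ℤ) ∣ x := by
        refine Int.prime_two.dvd_of_dvd_pow (n := 2) ⟨2 * ℓ - 3 * y ^ 2, ?_⟩
        linear_combination hb'
      obtain ⟨t, rfl⟩ := h3
      exact conc (by norm_num) (by norm_num) (by norm_num) ⟨-(3 * y ^ 2), by ring⟩
        ⟨t * y, by ring⟩

end Vale.Agent.P022.Sv
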